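import Mathlib

/-!
# Chern-Weil theory in a graded commutative differential algebra, without graded determinants

The determinants are taken in the commutative ring of the even central elements.
-/

namespace Vale.Agent.P286.H802

open Matrix Polynomial

section Inf

variable {k Z P : Type*} [CommRing k] [CommRing Z] [Algebra k Z] [AddCommGroup P] [Module Z P]
  [Module k P] {n : Type*} [Fintype n] [DecidableEq n]

/-- **Infinitesimal invariance of the characteristic polynomial.** -/
theorem der_charpoly_coeff (D : Derivation k Z P) (M : Matrix n n Z) (Th : n → n → P)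
    (h : ∀ i j, D (M i j) = ∑ l, (M i l • Th l j - M l j • Th i l)) (m : ℕ) :
    D (M.charpoly.coeff m) = 0 := by
  let _ : Module Zᵐᵒᵖ P := Module.compHom P ((RingHom.id Z).fromOpposite fun x y => mul_comm _ _)
  have _ : IsCentralScalar Z P := ⟨fun z p => rfl⟩
  let φ : Z →+* TrivSqZeroExt Z P :=
    { toFun := fun z => TrivSqZeroExt.inl z + TrivSqZeroExt.inr (D z)
      map_one' := by
        rw [D.map_one_eq_zero, TrivSqZeroExt.inr_zero, add_zero, TrivSqZeroExt.inl_one]
      map_mul' := fun x y => by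
        ext
        · simp
        · simp
      map_zero' := by simp
      map_add' := fun x y => by
        ext
        · simp
        · simp }
  let ι : Z →+* TrivSqZeroExt Z P := TrivSqZeroExt.inlHom Z P
  let T : Matrix n n (TrivSqZeroExt Z P) := Matrix.of fun i j => TrivSqZeroExt.inr (Th i j)
  have hT : T * T = 0 := by
    ext1 i j
    rw [Matrix.mul_apply]
    refine Finset.sum_eq_zero fun l _ => ?_
    simp only [T, Matrix.of_apply, TrivSqZeroExt.inr_mul_inr]
  let U : (Matrix n n (TrivSqZeroExt Z P))ˣ :=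
    { val := 1 + T
      inv := 1 - T
      val_inv := by
        have h0 : (1 + T) * (1 - T) = 1 - T * T := by noncomm_ring
        rw [h0, hT, sub_zero]
      inv_val := by
        have h0 : (1 - T) * (1 + T) = 1 - T * T := by noncomm_ring
        rw [h0, hT, sub_zero] }
  have key : M.map φ = (↑U⁻¹ : Matrix n n (TrivSqZeroExt Z P)) * M.map ι * U := by
    have h1 : (↑U⁻¹ : Matrix n n (TrivSqZeroExt Z P)) * M.map ι * U =
        M.map ι + (M.map ι * T - T * M.map ι) - T * M.map ι * T := by
      change (1 - T) * M.map ι * (1 + T) = _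
      noncomm_ring
    have h2 : T * M.map ι * T = 0 := by
      ext1 i j
      rw [Matrix.mul_apply]
      refine Finset.sum_eq_zero fun l _ => ?_
      rw [Matrix.mul_apply, Finset.sum_mul]
      refine Finset.sum_eq_zero fun l' _ => ?_
      ext
      · simp [T, ι]
      · simp [T, ι]
    rw [h1, h2, sub_zero]
    ext1 i j
    change TrivSqZeroExt.inl (M i j) + TrivSqZeroExt.inr (D (M i j)) =
      TrivSqZeroExt.inl (M i j) + ((M.map ι * T) i j - (T * M.map ι) i j)
    congr 1
    rw [h, Matrix.mul_apply, Matrix.mul_apply, ← Finset.sum_sub_distrib]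
    change TrivSqZeroExt.inrHom Z P (∑ l, (M i l • Th l j - M l j • Th i l)) = _
    rw [map_sum]
    refine Finset.sum_congr rfl fun l _ => ?_
    rw [map_sub]
    congr 1
    · ext
      · simp [T, ι]
      · simp [T, ι]
    · ext
      · simp [T, ι]
      · simp [T, ι]
  have h3 : (M.map φ).charpoly = (M.map ι).charpoly := by
    rw [key, Matrix.coe_units_inv, Matrix.charpoly_units_conj']
  rw [Matrix.charpoly_map, Matrix.charpoly_map] at h3
  have h4 := congrArg (fun p => p.coeff m) h3
  simp only [Polynomial.coeff_map] at h4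
  have h5 := congrArg TrivSqZeroExt.snd h4
  simpa [φ, ι] using h5

end Inf

/-- A parity automorphism `σ` and an odd derivation `d` of square zero. -/
structure OD (k R : Type*) [CommRing k] [Ring R] [Algebra k R] where
  σ : R →ₐ[k] R
  d : R →ₗ[k] R
  leib : ∀ x y, d (x * y) = d x * y + σ x * d y
  dd : ∀ x, d (d x) = 0
  sd : ∀ x, σ (d x) = - d (σ x)

namespace OD

set_option linter.unusedSectionVars false

variable {k R : Type*} [CommRing k] [Ring R] [Algebra k R] (D : OD k R)

/-- The even central elements. -/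
def ev : Subalgebra k R where
  carrier := {x | D.σ x = x ∧ ∀ y, x * y = y * x}
  mul_mem' {x y} hx hy := ⟨by rw [map_mul, hx.1, hy.1],
    fun z => by rw [mul_assoc, hy.2, ← mul_assoc, hx.2, mul_assoc]⟩
  add_mem' {x y} hx hy := ⟨by rw [map_add, hx.1, hy.1],
    fun z => by rw [add_mul, mul_add, hx.2, hy.2]⟩
  algebraMap_mem' r := ⟨D.σ.commutes r, fun y => Algebra.commutes r y⟩

theorem mem_ev {x : R} : x ∈ D.ev ↔ D.σ x = x ∧ ∀ y, x * y = y * x := Iff.rfl

instance : CommRing D.ev := { D.ev.toRing with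
  mul_comm := fun x y => Subtype.ext (x.2.2 y.1) }

/-- The derivation of the even central elements. -/
def der : Derivation k D.ev R where
  toFun x := D.d x.1
  map_add' x y := by exact map_add D.d x.1 y.1
  map_smul' r x := by exact map_smul D.d r x.1
  map_one_eq_zero' := by
    change D.d 1 = 0
    have h := D.leib 1 1
    have h1 : D.σ 1 = 1 := map_one D.σ
    rw [mul_one, h1, mul_one, one_mul] at h
    exact left_eq_add.1 h
  leibniz' x y := by
    change D.d (x.1 * y.1) = x.1 * D.d y.1 + y.1 * D.d x.1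
    rw [D.leib, x.2.1, y.2.2, add_comm]

theorem der_apply (x : D.ev) : D.der x = D.d x.1 := rfl

variable {n : Type*} [Fintype n] [DecidableEq n]

/-- The curvature. -/
def curv (Th : Matrix n n R) : Matrix n n R := Th.map D.d + Th * Th

/-- The matrix `Th` is odd. -/
def Odd (Th : Matrix n n R) : Prop := ∀ i j, D.σ (Th i j) = - Th i j

variable {D}

theorem d_mul (A B : Matrix n n R) (i j : n) :
    D.d ((A * B) i j) = (A.map D.d * B) i j + (A.map D.σ * B.map D.d) i j := by
  rw [Matrix.mul_apply, Matrix.mul_apply, Matrix.mul_apply, map_sum, ← Finset.sum_add_distrib]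
  refine Finset.sum_congr rfl fun l _ => ?_
  rw [D.leib]
  rfl

theorem map_d_mul (A B : Matrix n n R) :
    (A * B).map D.d = A.map D.d * B + A.map D.σ * B.map D.d := by
  ext i j
  exact d_mul A B i j

theorem map_d_add (A B : Matrix n n R) : (A + B).map D.d = A.map D.d + B.map D.d := by
  ext i j
  exact map_add D.d _ _

theorem map_dd (A : Matrix n n R) : (A.map D.d).map D.d = 0 := by
  ext i j
  exact D.dd _

theorem Odd.map_σ {Th : Matrix n n R} (h : D.Odd Th) : Th.map D.σ = -Th := by
  ext i j
  exact h i j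

/-- The Bianchi identity. -/
theorem d_curv {Th : Matrix n n R} (h : D.Odd Th) :
    (D.curv Th).map D.d = D.curv Th * Th - Th * D.curv Th := by
  unfold curv
  rw [map_d_add, map_dd, map_d_mul, h.map_σ]
  noncomm_ring

/-- The matrix of even central elements. -/
def up (F : Matrix n n D.ev) : Matrix n n R := F.map Subtype.val

theorem up_apply (F : Matrix n n D.ev) (i j : n) : up F i j = (F i j).1 := rfl

theorem up_mul (F G : Matrix n n D.ev) : up (F * G) = up F * up G := by
  ext i j
  rw [up_apply, Matrix.mul_apply, Matrix.mul_apply]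
  change D.ev.val (∑ l, F i l * G l j) = _
  rw [map_sum]
  rfl

theorem up_one : up (1 : Matrix n n D.ev) = 1 := by
  ext i j
  rw [up_apply, Matrix.one_apply, Matrix.one_apply]
  split_ifs
  · rfl
  · rfl

theorem up_injective : Function.Injective (up : Matrix n n D.ev → Matrix n n R) := by
  intro F G h
  ext i j
  exact congrFun (congrFun h i) j

theorem up_σ (F : Matrix n n D.ev) : (up F).map D.σ = up F := by
  ext i j
  exact (F i j).2.1

/-- The characteristic forms are closed. -/
theorem d_coeff {Th : Matrix n n R} (h : D.Odd Th) {F : Matrix n n D.ev} (hF : up F = D.curv Th)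
    (m : ℕ) : D.d (F.charpoly.coeff m).1 = 0 := by
  refine der_charpoly_coeff D.der F (fun i j => Th i j) (fun i j => ?_) m
  have h1 := d_curv h
  rw [← hF] at h1
  have h2 := congrFun (congrFun h1 i) j
  rw [Matrix.map_apply, Matrix.sub_apply, Matrix.mul_apply, Matrix.mul_apply,
    ← Finset.sum_sub_distrib] at h2
  rw [der_apply]
  refine h2.trans (Finset.sum_congr rfl fun l _ => ?_)
  rw [up_apply, up_apply, ← (F l j).2.2]
  rfl

/-- The gauge transformation `h⁻¹ Θ h + h⁻¹ dh`. -/
def gauge (D : OD k R) (u : (Matrix n n D.ev)ˣ) (Th : Matrix n n R) : Matrix n n R :=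
  up (↑u⁻¹ : Matrix n n D.ev) * Th * up (u : Matrix n n D.ev) +
    up (↑u⁻¹ : Matrix n n D.ev) * (up (u : Matrix n n D.ev)).map D.d

theorem up_inv_mul (u : (Matrix n n D.ev)ˣ) :
    up (↑u⁻¹ : Matrix n n D.ev) * up (u : Matrix n n D.ev) = 1 := by
  rw [← up_mul, Units.inv_mul, up_one]

theorem up_mul_inv (u : (Matrix n n D.ev)ˣ) :
    up (u : Matrix n n D.ev) * up (↑u⁻¹ : Matrix n n D.ev) = 1 := by
  rw [← up_mul, Units.mul_inv, up_one]

theorem d_up_inv (u : (Matrix n n D.ev)ˣ) :
    (up (↑u⁻¹ : Matrix n n D.ev)).map D.d =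
      - (up (↑u⁻¹ : Matrix n n D.ev) * (up (u : Matrix n n D.ev)).map D.d *
        up (↑u⁻¹ : Matrix n n D.ev)) := by
  have h1 : (up (↑u⁻¹ : Matrix n n D.ev) * up (u : Matrix n n D.ev)).map D.d = 0 := by
    rw [up_inv_mul]
    ext i j
    rw [Matrix.map_apply, Matrix.one_apply]
    split_ifs
    · exact D.der.map_one_eq_zero
    · exact map_zero D.d
  rw [map_d_mul, up_σ] at h1
  have h2 : (up (↑u⁻¹ : Matrix n n D.ev)).map D.d *
      (up (u : Matrix n n D.ev) * up (↑u⁻¹ : Matrix n n D.ev)) =
      - (up (↑u⁻¹ : Matrix n n D.ev) * (up (u : Matrix n n D.ev)).map D.d *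
        up (↑u⁻¹ : Matrix n n D.ev)) := by
    rw [← mul_assoc, eq_neg_of_add_eq_zero_left h1, neg_mul]
  rwa [up_mul_inv, mul_one] at h2

theorem gauge_aux {E : Type*} [Ring E] {a b x Th y : E} (h : a * b = 1) :
    (-(b * x * b) * Th + b * y) * a + -(b * Th) * x + (-(b * x * b) * x + b * 0) +
      (b * Th * a + b * x) * (b * Th * a + b * x) = b * (y + Th * Th) * a := by
  have h1 : (b * Th * a + b * x) * (b * Th * a + b * x) = b * Th * (a * b) * Th * a +
      b * Th * (a * b) * x + b * x * b * Th * a + b * x * b * x := by noncomm_ring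
  rw [h1, h]
  noncomm_ring

/-- The curvature of a gauge transform. -/
theorem curv_gauge (u : (Matrix n n D.ev)ˣ) {Th : Matrix n n R} (h : D.Odd Th) :
    D.curv (gauge D u Th) =
      up (↑u⁻¹ : Matrix n n D.ev) * D.curv Th * up (u : Matrix n n D.ev) := by
  have hi := up_mul_inv u
  have hd := d_up_inv u
  have hb := up_σ (↑u⁻¹ : Matrix n n D.ev)
  unfold curv gauge
  generalize up (↑u⁻¹ : Matrix n n D.ev) = b at hi hd hb ⊢
  generalize up (u : Matrix n n D.ev) = a at hi hd ⊢
  have h1 : (b * Th).map D.σ = - (b * Th) := by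
    rw [Matrix.map_mul, hb, h.map_σ, mul_neg]
  rw [map_d_add, map_d_mul, map_d_mul, map_d_mul b (a.map D.d), map_dd, hd, h1, hb]
  exact gauge_aux hi

theorem Odd.gauge (u : (Matrix n n D.ev)ˣ) {Th : Matrix n n R} (h : D.Odd Th) :
    D.Odd (gauge D u Th) := by
  have h1 : (OD.gauge D u Th).map D.σ = - OD.gauge D u Th := by
    have hs : ∀ A B : Matrix n n R, (A + B).map D.σ = A.map D.σ + B.map D.σ := by
      intro A B
      ext i j
      exact map_add D.σ _ _
    have hd : ((up (u : Matrix n n D.ev)).map D.d).map D.σ =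
        - (up (u : Matrix n n D.ev)).map D.d := by
      ext i j
      change D.σ (D.d (up (u : Matrix n n D.ev) i j)) = - D.d (up (u : Matrix n n D.ev) i j)
      rw [D.sd]
      congr 2
      exact ((u : Matrix n n D.ev) i j).2.1
    unfold OD.gauge
    rw [hs, Matrix.map_mul, Matrix.map_mul, Matrix.map_mul, up_σ, up_σ, h.map_σ, hd]
    noncomm_ring
  intro i j
  exact congrFun (congrFun h1 i) j

/-- Gauge transformations form an action. -/
theorem gauge_gauge (u v : (Matrix n n D.ev)ˣ) (Th : Matrix n n R) :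
    gauge D v (gauge D u Th) = gauge D (u * v) Th := by
  have hi := up_inv_mul u
  have hm : (up (u : Matrix n n D.ev) * up (v : Matrix n n D.ev)).map D.d =
      (up (u : Matrix n n D.ev)).map D.d * up (v : Matrix n n D.ev) +
      up (u : Matrix n n D.ev) * (up (v : Matrix n n D.ev)).map D.d := by
    rw [map_d_mul, up_σ]
  unfold gauge
  rw [_root_.mul_inv_rev, Units.val_mul, Units.val_mul, up_mul, up_mul, hm, mul_add (_ * _)]
  have h2 : up (↑v⁻¹ : Matrix n n D.ev) * up (↑u⁻¹ : Matrix n n D.ev) *
      (up (u : Matrix n n D.ev) * (up (v : Matrix n n D.ev)).map D.d) =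
      up (↑v⁻¹ : Matrix n n D.ev) * (up (v : Matrix n n D.ev)).map D.d := by
    rw [mul_assoc, ← mul_assoc (up (↑u⁻¹ : Matrix n n D.ev)), hi, one_mul]
  rw [h2]
  noncomm_ring

theorem gauge_one (Th : Matrix n n R) : gauge D 1 Th = Th := by
  have h : (up (1 : Matrix n n D.ev)).map D.d = 0 := by
    rw [up_one]
    ext i j
    rw [Matrix.map_apply, Matrix.one_apply]
    split_ifs
    · exact D.der.map_one_eq_zero
    · exact map_zero D.d
  unfold gauge
  rw [inv_one, Units.val_one, h, up_one, one_mul, mul_one, mul_zero, add_zero]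

/-- Gauge invariance of the characteristic forms. -/
theorem charpoly_gauge (u : (Matrix n n D.ev)ˣ) {Th : Matrix n n R} (h : D.Odd Th)
    {F F' : Matrix n n D.ev} (hF : up F = D.curv Th) (hF' : up F' = D.curv (gauge D u Th)) :
    F'.charpoly = F.charpoly := by
  have h1 : F' = (↑u⁻¹ : Matrix n n D.ev) * F * u := by
    apply up_injective
    rw [hF', curv_gauge u h, up_mul, up_mul, hF]
  rw [h1, Matrix.coe_units_inv, Matrix.charpoly_units_conj']

variable (D) in
/-- Graded commutativity. -/
structure GC : Prop where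
  ev : ∀ x, D.σ x = x → ∀ y, x * y = y * x
  odd : ∀ x y, D.σ x = -x → D.σ y = -y → x * y = -(y * x)

/-- The curvature, as a matrix of even central elements. -/
def crv (hD : D.GC) {Th : Matrix n n R} (h : D.Odd Th) : Matrix n n D.ev :=
  Matrix.of fun i j => ⟨D.curv Th i j, by
    have h1 : D.σ (D.curv Th i j) = D.curv Th i j := by
      unfold curv
      rw [Matrix.add_apply, map_add, Matrix.mul_apply, map_sum]
      congr 1
      · change D.σ (D.d (Th i j)) = D.d (Th i j)
        rw [D.sd, h i j, map_neg, neg_neg]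
      · refine Finset.sum_congr rfl fun l _ => ?_
        rw [map_mul, h, h, neg_mul_neg]
    exact ⟨h1, hD.ev _ h1⟩⟩

theorem up_crv (hD : D.GC) {Th : Matrix n n R} (h : D.Odd Th) : up (crv hD h) = D.curv Th := rfl

/-- The characteristic forms. -/
noncomputable def chf (hD : D.GC) {Th : Matrix n n R} (h : D.Odd Th) (m : ℕ) : R :=
  ((crv hD h).charpoly.coeff m).1

theorem d_chf (hD : D.GC) {Th : Matrix n n R} (h : D.Odd Th) (m : ℕ) : D.d (chf hD h m) = 0 :=
  d_coeff h (up_crv hD h) m

theorem chf_gauge (hD : D.GC) (u : (Matrix n n D.ev)ˣ) {Th : Matrix n n R} (h : D.Odd Th)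
    (m : ℕ) : chf hD (h.gauge u) m = chf hD h m := by
  unfold chf
  rw [charpoly_gauge u h (up_crv hD h) (up_crv hD (h.gauge u))]

section Map

variable {R' : Type*} [Ring R'] [Algebra k R'] {D' : OD k R'}

/-- Homomorphisms. -/
structure Hom (D : OD k R) (D' : OD k R') where
  f : R →ₐ[k] R'
  fσ : ∀ x, f (D.σ x) = D'.σ (f x)
  fd : ∀ x, f (D.d x) = D'.d (f x)

/-- The homomorphism of the rings of even central elements. -/
def Hom.fe (φ : Hom D D') (hD' : D'.GC) : D.ev →ₐ[k] D'.ev where
  toFun x := ⟨φ.f x.1, by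
    have h : D'.σ (φ.f x.1) = φ.f x.1 := by rw [← φ.fσ, x.2.1]
    exact ⟨h, hD'.ev _ h⟩⟩
  map_one' := Subtype.ext (map_one φ.f)
  map_mul' x y := Subtype.ext (map_mul φ.f x.1 y.1)
  map_zero' := Subtype.ext (map_zero φ.f)
  map_add' x y := Subtype.ext (map_add φ.f x.1 y.1)
  commutes' r := Subtype.ext (φ.f.commutes r)

theorem Hom.fe_val (φ : Hom D D') (hD' : D'.GC) (x : D.ev) : (φ.fe hD' x).1 = φ.f x.1 := rfl

theorem Odd.map {Th : Matrix n n R} (h : D.Odd Th) (φ : Hom D D') : D'.Odd (Th.map φ.f) := by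
  intro i j
  rw [Matrix.map_apply, ← φ.fσ, h, map_neg]

theorem curv_map (φ : Hom D D') (Th : Matrix n n R) :
    D'.curv (Th.map φ.f) = (D.curv Th).map φ.f := by
  ext i j
  unfold curv
  rw [Matrix.map_apply, Matrix.add_apply, Matrix.add_apply, map_add, Matrix.mul_apply,
    Matrix.mul_apply, map_sum]
  congr 1
  · change D'.d (φ.f (Th i j)) = φ.f (D.d (Th i j))
    rw [φ.fd]
  · refine Finset.sum_congr rfl fun l _ => ?_
    rw [map_mul]
    rfl

theorem chf_map (φ : Hom D D') (hD : D.GC) (hD' : D'.GC) {Th : Matrix n n R} (h : D.Odd Th)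
    (m : ℕ) : φ.f (chf hD h m) = chf hD' (h.map φ) m := by
  have h1 : crv hD' (h.map φ) = (crv hD h).map (φ.fe hD') := by
    apply up_injective
    rw [up_crv, curv_map]
    rfl
  unfold chf
  have h2 : ((crv hD h).map (φ.fe hD')).charpoly =
      (crv hD h).charpoly.map (φ.fe hD' : D.ev →+* D'.ev) :=
    Matrix.charpoly_map (crv hD h) (φ.fe hD' : D.ev →+* D'.ev)
  rw [h1, h2, Polynomial.coeff_map]
  rfl

theorem gauge_map (φ : Hom D D') (hD' : D'.GC) (u : (Matrix n n D.ev)ˣ) (Th : Matrix n n R) :
    (gauge D u Th).map φ.f =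
      gauge D' (Units.map (RingHom.mapMatrix (φ.fe hD' : D.ev →+* D'.ev)).toMonoidHom u)
        (Th.map φ.f) := by
  have hu : ∀ A : Matrix n n D.ev, (up A).map φ.f = up (A.map (φ.fe hD')) := by
    intro A
    rfl
  have hs : ∀ A B : Matrix n n R, (A + B).map φ.f = A.map φ.f + B.map φ.f := by
    intro A B
    ext i j
    exact map_add φ.f _ _
  have hd : ∀ A : Matrix n n R, (A.map D.d).map φ.f = (A.map φ.f).map D'.d := by
    intro A
    ext i j
    exact φ.fd _
  unfold gauge
  rw [hs, Matrix.map_mul, Matrix.map_mul, Matrix.map_mul, hd, hu, hu]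
  rfl

end Map

end OD

end Vale.Agent.P286.H802
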